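import Vale.Agent.P219.T.Final
import Vale.Agent.P219.V.Bdd

namespace Vale.Agent.Results.P219.A0_dist

open scoped ContDiff Manifold
open Set Vale.Agent.P255 Vale.Agent.P219.St

theorem result {n : ℕ} (h2 : 2 ≤ n) {κ : ℝ} (hκ : κ ≤ 0)
    {M : Type*} [TopologicalSpace M] [ChartedSpace (Euc n) M] [IsManifold 𝓘(ℝ, Euc n) ∞ M]
    [T2Space M] [SimplyConnectedSpace M] (g : Metric (Euc n) M) (hc : Complete g) (hK : SecLe g κ)
    (Ω : Set M) (hΩ : IsDom g Ω) :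
    rmeas g n Ω ≠ ⊤ ∧
      ENNReal.ofReal (profile n κ (rmeas g n Ω).toReal) ≤ rmeas g (n - 1) (frontier Ω) ∧
      (Ω.Nonempty →
        rmeas g (n - 1) (frontier Ω) = ENNReal.ofReal (profile n κ (rmeas g n Ω).toReal) →
          ∃ (r : ℝ) (ψ : Euc n → M), 0 < r ∧ IsomTo g ψ {x | ‖x‖ < r} Ω (gmod (√(-κ)))) := by
  simp only [← ball_zero_eq]
  obtain ⟨m, rfl⟩ : ∃ m, n = m + 1 := ⟨n - 1, by omega⟩
  obtain ⟨r, h0, h1, h3, h4⟩ := Vale.Agent.P219.mainFull (m := m) (by omega) hκ g hc hK Ω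
    ⟨hΩ.1, Vale.Agent.P219.isDom_compact hκ hc hK hΩ, hΩ.3⟩
  have e1 : rmeas g (m + 1) Ω = ENNReal.ofReal (ballVol (m + 1) κ r) := h1
  rw [e1, Vale.Agent.P219.profile_eq m κ h0]
  refine ⟨ENNReal.ofReal_ne_top, h3, fun hne heq => ?_⟩
  obtain ⟨ψ, h5⟩ := h4 hne heq
  obtain ⟨x, hx⟩ := hne
  obtain ⟨z, hz, -⟩ := h5.1.surjOn hx
  exact ⟨r, ψ, Metric.pos_of_mem_ball hz, h5⟩

end Vale.Agent.Results.P219.A0_dist
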