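import Vale.Agent.P219.T.Final

namespace Vale.Agent.Results.P219.A0_full

open scoped ContDiff Manifold
open Set Vale.Agent.P255 Vale.Agent.P219.St

theorem result {n : ℕ} (h2 : 2 ≤ n) {κ : ℝ} (hκ : κ ≤ 0)
    {M : Type*} [TopologicalSpace M] [ChartedSpace (Euc n) M] [IsManifold 𝓘(ℝ, Euc n) ∞ M]
    [T2Space M] [SimplyConnectedSpace M] (g : Metric (Euc n) M) (hc : Complete g) (hK : SecLe g κ)
    (Ω : Set M) (hΩ : IsDomain (Euc n) Ω) :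
    ∃ r : ℝ, 0 ≤ r ∧ rmeas g n Ω = ENNReal.ofReal (ballVol n κ r) ∧
      ENNReal.ofReal (ballArea n κ r) ≤ rmeas g (n - 1) (frontier Ω) ∧
      (Ω.Nonempty → rmeas g (n - 1) (frontier Ω) = ENNReal.ofReal (ballArea n κ r) →
        ∃ ψ : Euc n → M, IsomTo g ψ {x | ‖x‖ < r} Ω (gmod (√(-κ)))) := by
  simp only [← ball_zero_eq]
  obtain ⟨m, rfl⟩ : ∃ m, n = m + 1 := ⟨n - 1, by omega⟩
  exact Vale.Agent.P219.mainFull (by omega) hκ g hc hK Ω ⟨hΩ.1, hΩ.2, hΩ.3⟩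

end Vale.Agent.Results.P219.A0_full
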