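import Vale.Agent.P219.G.All

namespace Vale.Agent.Results.P219.A7_k456

open scoped ContDiff Manifold
open Set Vale.Agent.P255 Vale.Agent.P219.St

theorem result {n : ℕ} (h4 : 4 ≤ n) (h6 : n ≤ 6) {κ : ℝ} (hκ : κ ≤ 0) {M : Type*}
    [TopologicalSpace M] [ChartedSpace (Euc n) M] [IsManifold 𝓘(ℝ, Euc n) ∞ M] [T2Space M]
    [SimplyConnectedSpace M] (g : Metric (Euc n) M) (hc : Complete g) (hK : SecLe g κ) (Ω : Set M)
    (hΩ : IsDomain (Euc n) Ω) :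
    ∃ r : ℝ, 0 ≤ r ∧ rmeas g n Ω = ENNReal.ofReal (ballVol n κ r) ∧
      ENNReal.ofReal (ballArea n κ r) ≤ rmeas g (n - 1) (frontier Ω) ∧
      (Ω.Nonempty → rmeas g (n - 1) (frontier Ω) = ENNReal.ofReal (ballArea n κ r) →
        ∃ ψ : Euc n → M, IsomTo g ψ {x | ‖x‖ < r} Ω (gmod (√(-κ)))) := by
  simp only [← ball_zero_eq]
  obtain ⟨m, rfl⟩ : ∃ m, n = m + 1 := ⟨n - 1, by omega⟩
  exact Vale.Agent.P219.mainG (by omega) hκ (Vale.Agent.P219.core456 (by omega) (by omega)) g hc hK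
    Ω ⟨hΩ.1, hΩ.2, hΩ.3⟩

end Vale.Agent.Results.P219.A7_k456
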