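import Vale.Agent.P219.G.Final
import Vale.Agent.P219.G.Cert4
import Vale.Agent.P219.G.Cert5

namespace Vale.Agent.Results.P219.A8_k56

open scoped ContDiff Manifold
open Set Vale.Agent.P255 Vale.Agent.P219.St

theorem result {n : ℕ} (hn : n = 5 ∨ n = 6) {κ : ℝ} (hκ : κ ≤ 0) {M : Type*} [TopologicalSpace M]
    [ChartedSpace (Euc n) M] [IsManifold 𝓘(ℝ, Euc n) ∞ M] [T2Space M] [SimplyConnectedSpace M]
    (g : Metric (Euc n) M) (hc : Complete g) (hK : SecLe g κ) (Ω : Set M)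
    (hΩ : IsDomain (Euc n) Ω) :
    ∃ r : ℝ, 0 ≤ r ∧ rmeas g n Ω = ENNReal.ofReal (ballVol n κ r) ∧
      ENNReal.ofReal (ballArea n κ r) ≤ rmeas g (n - 1) (frontier Ω) ∧
      (Ω.Nonempty → rmeas g (n - 1) (frontier Ω) = ENNReal.ofReal (ballArea n κ r) →
        ∃ ψ : Euc n → M, IsomTo g ψ {x | ‖x‖ < r} Ω (gmod (√(-κ)))) := by
  simp only [← ball_zero_eq]
  rcases hn with rfl | rfl
  · exact Vale.Agent.P219.mainG (m := 4) (by norm_num) hκ (fun _ _ hP c ρ hρ =>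
      Vale.Agent.P219.coreN (by norm_num) hρ (Vale.Agent.P219.ncert4
        (Vale.Agent.P219.gam_mem _ ρ).1 (Vale.Agent.P219.gam_mem _ ρ).2) hP c) g hc hK Ω
      ⟨hΩ.1, hΩ.2, hΩ.3⟩
  · exact Vale.Agent.P219.mainG (m := 5) (by norm_num) hκ (fun _ _ hP c ρ hρ =>
      Vale.Agent.P219.coreN (by norm_num) hρ (Vale.Agent.P219.ncert5
        (Vale.Agent.P219.gam_mem _ ρ).1 (Vale.Agent.P219.gam_mem _ ρ).2) hP c) g hc hK Ω
      ⟨hΩ.1, hΩ.2, hΩ.3⟩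

end Vale.Agent.Results.P219.A8_k56
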