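import Vale.Agent.P219.G.Final
import Vale.Agent.P219.G.Cert4

namespace Vale.Agent.Results.P219.A9_k5

open scoped ContDiff Manifold
open Set Vale.Agent.P255 Vale.Agent.P219.St

theorem result {κ : ℝ} (hκ : κ ≤ 0) {M : Type*} [TopologicalSpace M] [ChartedSpace (Euc 5) M]
    [IsManifold 𝓘(ℝ, Euc 5) ∞ M] [T2Space M] [SimplyConnectedSpace M] (g : Metric (Euc 5) M)
    (hc : Complete g) (hK : SecLe g κ) (Ω : Set M) (hΩ : IsDomain (Euc 5) Ω) :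
    ∃ r : ℝ, 0 ≤ r ∧ rmeas g 5 Ω = ENNReal.ofReal (ballVol 5 κ r) ∧
      ENNReal.ofReal (ballArea 5 κ r) ≤ rmeas g 4 (frontier Ω) ∧
      (Ω.Nonempty → rmeas g 4 (frontier Ω) = ENNReal.ofReal (ballArea 5 κ r) →
        ∃ ψ : Euc 5 → M, IsomTo g ψ {x | ‖x‖ < r} Ω (gmod (√(-κ)))) := by
  simp only [← ball_zero_eq]
  exact Vale.Agent.P219.mainG (m := 4) (by norm_num) hκ (fun _ _ hP c ρ hρ =>
    Vale.Agent.P219.coreN (by norm_num) hρ (Vale.Agent.P219.ncert4 (Vale.Agent.P219.gam_mem _ ρ).1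
      (Vale.Agent.P219.gam_mem _ ρ).2) hP c) g hc hK Ω ⟨hΩ.1, hΩ.2, hΩ.3⟩

end Vale.Agent.Results.P219.A9_k5
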