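import Vale.Agent.P219.Final
import Vale.Agent.P219.Stmt

namespace Vale.Agent.Results.P219.B_dim5

open scoped ContDiff Manifold RealInnerProductSpace
open MeasureTheory Set Vale.Agent.P255 Vale.Agent.P219.St

theorem result {M : Type*} [TopologicalSpace M] [ChartedSpace (Euc 5) M]
    [IsManifold 𝓘(ℝ, Euc 5) ∞ M] [T2Space M] [SimplyConnectedSpace M] (g : Metric (Euc 5) M)
    (hc : Complete g) (hK : g.NPC) (Ω : Set M) (hΩ : IsDomain (Euc 5) Ω) :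
    5 * volume {x : Euc 5 | ‖x‖ < 1} ^ (1 / 5 : ℝ) * rmeas g 5 Ω ^ (4 / 5 : ℝ) ≤
        rmeas g 4 (frontier Ω) ∧
      (Ω.Nonempty → rmeas g 4 (frontier Ω) =
          5 * volume {x : Euc 5 | ‖x‖ < 1} ^ (1 / 5 : ℝ) * rmeas g 5 Ω ^ (4 / 5 : ℝ) →
        ∃ R : ℝ, 0 < R ∧ ∃ ψ : Euc 5 → M, Isom g ψ {x | ‖x‖ < R} Ω fun u v => ⟪u, v⟫) := by
  simp only [← ball_zero_eq]
  exact Vale.Agent.P219.main g hc hK Ω ⟨hΩ.1, hΩ.2, hΩ.3⟩

end Vale.Agent.Results.P219.B_dim5
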